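import Vale.Agent.P132N34.E

/-!
# P132: Connes' bicentralizer conjecture, with normal states defined by order continuity or by
`σ`-weak continuity
-/

namespace Vale.Agent.Results.P132.ANormalStates

open Vale.Agent.P132 Vale.Agent.P132N34

universe u

/-- **Connes' bicentralizer conjecture.** (1) If `M` is a type III₁ factor and `φ` is a faithful
normal state of `M`, then `B(M, φ) = ℂ 1`; normal means that `φ` preserves the suprema of bounded
increasing nets of positive elements. (2) For a state `φ` of a von Neumann algebra `M`, being normal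
is equivalent to being `σ`-weakly continuous (`φ ∈ M_*`), and to being of the form
`∑ ⟨x (η i), η i⟩` with `∑ ‖η i‖² = 1`. -/
theorem result :
    ∀ (H : Type u) [NormedAddCommGroup H] [InnerProductSpace ℂ H] [CompleteSpace H]
      (M : VonNeumannAlgebra H),
      (IsTypeIIIOneFactor M → ∀ φ : (H →L[ℂ] H) → ℂ, IsState M φ → IsNormal M φ →
        IsFaithful M φ → bicentralizer M φ = {a | ∃ c : ℂ, a = c • 1}) ∧
      ∀ φ : (H →L[ℂ] H) → ℂ, IsState M φ →
        (IsNormal M φ ↔ IsSigmaWeaklyContinuous M φ) ∧ (IsNormal M φ ↔ IsNormalState M φ) :=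
  fun _ _ _ _ _ => ⟨fun hM _ h hn hf => bicentralizer_eq_of_weights hM (h.series hn) hf,
    fun _ h => ⟨⟨fun hn => cont_of_series (h.series hn), h.normal_of_cont⟩,
      h.series, h.normal_of_series⟩⟩

end Vale.Agent.Results.P132.ANormalStates
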